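import Mathlib

set_option autoImplicit false

namespace Vale.Agent.Results.P339.NotTwoGadget

open Finset

/-- A projection game with the uniform distribution on its finite constraint set `E`:
constraint `e` joins the left vertex `left e` to the right vertex `right e` and carries the
map `map e` from the left alphabet to the right alphabet. -/
structure ProjGame (U V E LL RR : Type*) where
  left : E → U
  right : E → V
  map : E → LL → RR

/-- The number of constraints satisfied by the labelling `A` of the left vertices and `B` of the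
right vertices: `e` is satisfied when `map e (A (left e)) = B (right e)`. -/
def ProjGame.satCount {U V E LL RR : Type*} [Fintype E] [DecidableEq RR]
    (G : ProjGame U V E LL RR) (A : U → LL) (B : V → RR) : ℕ :=
  (univ.filter fun e => G.map e (A (G.left e)) = B (G.right e)).card

/-- The value of a literal, a pair of a variable and a sign (`true` means negated). -/
def litVal {Var : Type*} (α : Var → Bool) (l : Var × Bool) : Bool := xor (α l.1) l.2

/-- The predicate Not-2 on three bits: the number of true bits is not exactly two. -/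
def Not2 (x y z : Bool) : Prop := x.toNat + y.toNat + z.toNat ≠ 2

instance (x y z : Bool) : Decidable (Not2 x y z) := by unfold Not2; infer_instance

/-- A Not-2 instance: `m` clauses, each with three literals. The clause `i` is satisfied by `α`
when the values of its three literals satisfy `Not2`. -/
def ClauseSat {Var : Type*} {m : ℕ} (Φ : Fin m → Fin 3 → Var × Bool) (α : Var → Bool) (i : Fin m) :
    Prop :=
  Not2 (litVal α (Φ i 0)) (litVal α (Φ i 1)) (litVal α (Φ i 2))

instance {Var : Type*} {m : ℕ} (Φ : Fin m → Fin 3 → Var × Bool) (α : Var → Bool) (i : Fin m) :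
    Decidable (ClauseSat Φ α i) := by unfold ClauseSat; infer_instance

/-- The number of clauses satisfied by `α`. -/
def satClauses {Var : Type*} {m : ℕ} (Φ : Fin m → Fin 3 → Var × Bool) (α : Var → Bool) : ℕ :=
  (univ.filter fun i => ClauseSat Φ α i).card

/-- Twist of the six right symbols for a negated literal: `s ↦ s + 3` in `Fin 6`. -/
def tw (s : Bool) (x : Fin 6) : Fin 6 := if s then x + 3 else x

/-- The truth value decoded from a right symbol: `0,1,2` mean false and `3,4,5` mean true. -/
def dec (x : Fin 6) : Bool := decide (3 ≤ x.val)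

/-- Table of the first left vertex of a clause gadget (twelve labels): first literal. -/
def wX : Fin 12 → Fin 6 := ![0, 0, 3, 3, 1, 1, 2, 2, 4, 4, 5, 5]
/-- Table of the first left vertex of a clause gadget: second literal. -/
def wY : Fin 12 → Fin 6 := ![0, 3, 0, 3, 1, 2, 1, 4, 2, 5, 4, 5]
/-- Table of the first left vertex of a clause gadget: the local right vertex. -/
def wB : Fin 12 → Fin 6 := ![0, 2, 2, 4, 0, 1, 1, 3, 3, 4, 5, 5]
/-- Table of the second left vertex of a clause gadget: the local right vertex. -/
def vB : Fin 12 → Fin 6 := ![0, 0, 2, 2, 4, 4, 1, 1, 3, 3, 5, 5]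
/-- Table of the second left vertex of a clause gadget: third literal. -/
def vZ : Fin 12 → Fin 6 := ![0, 3, 0, 1, 3, 4, 2, 5, 1, 2, 4, 5]

/-- The 2-to-1 game of a Not-2 instance, with alphabets `Fin 12` and `Fin 6` (`q = 6`).
Each clause `i` has left vertices `(i, false)`, `(i, true)`, one local right vertex `Sum.inr i`
and five constraints; the variables are the other right vertices. -/
def gadget {Var : Type*} {m : ℕ} (Φ : Fin m → Fin 3 → Var × Bool) :
    ProjGame (Fin m × Bool) (Var ⊕ Fin m) (Fin m × Fin 5) (Fin 12) (Fin 6) where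
  left e := (e.1, decide (3 ≤ e.2.val))
  right e :=
    if e.2 = 0 then Sum.inl (Φ e.1 0).1
    else if e.2 = 1 then Sum.inl (Φ e.1 1).1
    else if e.2 = 4 then Sum.inl (Φ e.1 2).1
    else Sum.inr e.1
  map e a :=
    if e.2 = 0 then tw (Φ e.1 0).2 (wX a)
    else if e.2 = 1 then tw (Φ e.1 1).2 (wY a)
    else if e.2 = 2 then wB a
    else if e.2 = 3 then vB a
    else tw (Φ e.1 2).2 (vZ a)

lemma fib_tables :
    (∀ s : Bool, ∀ b : Fin 6, (univ.filter fun a : Fin 12 => tw s (wX a) = b).card = 2) ∧
    (∀ s : Bool, ∀ b : Fin 6, (univ.filter fun a : Fin 12 => tw s (wY a) = b).card = 2) ∧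
    (∀ s : Bool, ∀ b : Fin 6, (univ.filter fun a : Fin 12 => tw s (vZ a) = b).card = 2) ∧
    (∀ b : Fin 6, (univ.filter fun a : Fin 12 => wB a = b).card = 2) ∧
    (∀ b : Fin 6, (univ.filter fun a : Fin 12 => vB a = b).card = 2) := by
  decide

lemma gadget_two_to_one {Var : Type*} {m : ℕ} (Φ : Fin m → Fin 3 → Var × Bool)
    (e : Fin m × Fin 5) (b : Fin 6) :
    (univ.filter fun a : Fin 12 => (gadget Φ).map e a = b).card = 2 := by
  obtain ⟨i, j⟩ := e
  obtain ⟨h1, h2, h3, h4, h5⟩ := fib_tables
  fin_cases j
  · simpa [gadget] using h1 (Φ i 0).2 b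
  · simpa [gadget] using h2 (Φ i 1).2 b
  · simpa [gadget] using h4 b
  · simpa [gadget] using h5 b
  · simpa [gadget] using h3 (Φ i 2).2 b

lemma dec_tw : ∀ (s : Bool) (x : Fin 6), xor (dec (tw s x)) s = dec x := by decide

lemma sound_table : ∀ a b : Fin 12, wB a = vB b → Not2 (dec (wX a)) (dec (wY a)) (dec (vZ b)) := by
  decide

/-- If all five constraints of a clause hold, the decoded assignment satisfies the clause. -/
lemma clause_of_all {Var : Type*} {m : ℕ} (Φ : Fin m → Fin 3 → Var × Bool)
    (A : Fin m × Bool → Fin 12) (B : Var ⊕ Fin m → Fin 6) (i : Fin m)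
    (h : ∀ j : Fin 5, (gadget Φ).map (i, j) (A ((gadget Φ).left (i, j)))
      = B ((gadget Φ).right (i, j))) :
    ClauseSat Φ (fun v => dec (B (Sum.inl v))) i := by
  have h0 := h 0
  have h1 := h 1
  have h2 := h 2
  have h3 := h 3
  have h4 := h 4
  simp [gadget] at h0 h1 h2 h3 h4
  show Not2 (xor (dec (B (Sum.inl (Φ i 0).1))) (Φ i 0).2) (xor (dec (B (Sum.inl (Φ i 1).1))) (Φ i 1).2)
    (xor (dec (B (Sum.inl (Φ i 2).1))) (Φ i 2).2)
  rw [← h0, ← h1, ← h4, dec_tw, dec_tw, dec_tw]
  exact sound_table _ _ (h2.trans h3.symm)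

/-- The canonical right symbol of a truth value. -/
def canon (x : Bool) : Fin 6 := if x then 3 else 0

/-- The canonical label of the first left vertex. -/
def cw (x y : Bool) : Fin 12 := if x then (if y then 3 else 2) else (if y then 1 else 0)

/-- The canonical label of the second left vertex. -/
def cv (x y z : Bool) : Fin 12 :=
  if x then (if y then 4 else 2) else (if y then 2 else (if z then 1 else 0))

lemma complete_table : ∀ x y z : Bool, Not2 x y z →
    wX (cw x y) = canon x ∧ wY (cw x y) = canon y ∧ vB (cv x y z) = wB (cw x y) ∧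
      vZ (cv x y z) = canon z := by
  decide

lemma tw_canon : ∀ x s : Bool, tw s (canon (xor x s)) = canon x := by decide

/-- Completeness: a satisfying assignment gives a labelling satisfying all constraints. -/
theorem completeness {Var : Type*} {m : ℕ} (Φ : Fin m → Fin 3 → Var × Bool) (α : Var → Bool)
    (hα : ∀ i, ClauseSat Φ α i) :
    ∃ (A : Fin m × Bool → Fin 12) (B : Var ⊕ Fin m → Fin 6),
      ∀ e, (gadget Φ).map e (A ((gadget Φ).left e)) = B ((gadget Φ).right e) := by
  let l (i : Fin m) (k : Fin 3) : Bool := litVal α (Φ i k)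
  refine ⟨fun p => if p.2 then cv (l p.1 0) (l p.1 1) (l p.1 2) else cw (l p.1 0) (l p.1 1),
    fun t => match t with
      | Sum.inl v => canon (α v)
      | Sum.inr i => wB (cw (l i 0) (l i 1)), ?_⟩
  rintro ⟨i, j⟩
  obtain ⟨h1, h2, h3, h4⟩ := complete_table _ _ _ (hα i)
  have t0 := tw_canon (α (Φ i 0).1) (Φ i 0).2
  have t1 := tw_canon (α (Φ i 1).1) (Φ i 1).2
  have t2 := tw_canon (α (Φ i 2).1) (Φ i 2).2
  fin_cases j
  · simp [gadget, l, litVal] at h1 ⊢
    rw [h1, t0]
  · simp [gadget, l, litVal] at h2 ⊢
    rw [h2, t1]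
  · simp [gadget, l, litVal]
  · simp [gadget, l, litVal] at h3 ⊢
    exact h3
  · simp [gadget, l, litVal] at h4 ⊢
    rw [h4, t2]

/-- Soundness, in counts. -/
theorem soundness_count {Var : Type*} {m : ℕ} (Φ : Fin m → Fin 3 → Var × Bool)
    (A : Fin m × Bool → Fin 12) (B : Var ⊕ Fin m → Fin 6) :
    (gadget Φ).satCount A B ≤ 4 * m + satClauses Φ (fun v => dec (B (Sum.inl v))) := by
  classical
  set α : Var → Bool := fun v => dec (B (Sum.inl v)) with hα
  have hsplit : (gadget Φ).satCount A B
      = ∑ i : Fin m, (univ.filter fun j : Fin 5 =>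
          (gadget Φ).map (i, j) (A ((gadget Φ).left (i, j))) = B ((gadget Φ).right (i, j))).card := by
    unfold ProjGame.satCount
    rw [Finset.card_filter, Fintype.sum_prod_type]
    refine Finset.sum_congr rfl fun i _ => ?_
    rw [Finset.card_filter]
  have hterm : ∀ i : Fin m, (univ.filter fun j : Fin 5 =>
      (gadget Φ).map (i, j) (A ((gadget Φ).left (i, j))) = B ((gadget Φ).right (i, j))).card
      ≤ 4 + (if ClauseSat Φ α i then 1 else 0) := by
    intro i
    by_cases hc : ClauseSat Φ α i
    · rw [if_pos hc]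
      calc _ ≤ (univ : Finset (Fin 5)).card := Finset.card_filter_le _ _
        _ = 5 := by simp
    · rw [if_neg hc]
      have hne : ∃ j : Fin 5, ¬ (gadget Φ).map (i, j) (A ((gadget Φ).left (i, j)))
          = B ((gadget Φ).right (i, j)) := by
        by_contra hall
        exact hc (clause_of_all Φ A B i fun j => by
          by_contra hj
          exact hall ⟨j, hj⟩)
      obtain ⟨j, hj⟩ := hne
      have hsub : (univ.filter fun j : Fin 5 =>
          (gadget Φ).map (i, j) (A ((gadget Φ).left (i, j))) = B ((gadget Φ).right (i, j)))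
          ⊆ (univ : Finset (Fin 5)).erase j := by
        intro k hk
        simp only [mem_filter, mem_univ, true_and] at hk
        simp only [mem_erase, mem_univ, and_true]
        rintro rfl
        exact hj hk
      calc _ ≤ ((univ : Finset (Fin 5)).erase j).card := Finset.card_le_card hsub
        _ = 4 := by simp
        _ = 4 + 0 := rfl
  rw [hsplit]
  calc ∑ i : Fin m, _ ≤ ∑ i : Fin m, (4 + (if ClauseSat Φ α i then 1 else 0)) :=
        Finset.sum_le_sum fun i _ => hterm i
    _ = 4 * m + satClauses Φ α := by
        rw [Finset.sum_add_distrib, satClauses, Finset.card_filter, Finset.sum_const,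
          Finset.card_univ, Fintype.card_fin, smul_eq_mul, mul_comm]

/-- **The Not-2 gadget.** For every Not-2 instance `Φ` with `m` clauses, the game `gadget Φ` is a
2-to-1 game with `q = 6` (alphabets `Fin 12`, `Fin 6`; every map has all fibres of size exactly 2),
with `5 m` constraints; if `Φ` is satisfiable some labelling satisfies every constraint; and if
every assignment satisfies at most a fraction `s` of the clauses, then every labelling satisfies at
most a fraction `(4 + s) / 5` of the constraints. In particular `s = 5/8 + ε` gives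
`37/40 + ε/5`. -/
theorem result {Var : Type*} {m : ℕ} (Φ : Fin m → Fin 3 → Var × Bool) :
    (∀ (e : Fin m × Fin 5) (b : Fin 6),
      (univ.filter fun a : Fin 12 => (gadget Φ).map e a = b).card = 2) ∧
    Fintype.card (Fin m × Fin 5) = 5 * m ∧
    ((∃ α : Var → Bool, ∀ i, ClauseSat Φ α i) →
      ∃ (A : Fin m × Bool → Fin 12) (B : Var ⊕ Fin m → Fin 6),
        ∀ e, (gadget Φ).map e (A ((gadget Φ).left e)) = B ((gadget Φ).right e)) ∧
    (∀ s : ℝ, 0 < m → (∀ α : Var → Bool, (satClauses Φ α : ℝ) ≤ s * m) →
      ∀ (A : Fin m × Bool → Fin 12) (B : Var ⊕ Fin m → Fin 6),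
        ((gadget Φ).satCount A B : ℝ) / (Fintype.card (Fin m × Fin 5) : ℝ) ≤ (4 + s) / 5) := by
  refine ⟨gadget_two_to_one Φ, by simp [mul_comm], fun ⟨α, hα⟩ => completeness Φ α hα, ?_⟩
  intro s hm hs A B
  have hc : (Fintype.card (Fin m × Fin 5) : ℝ) = 5 * m := by
    simp [mul_comm]
  have hm' : (0 : ℝ) < m := by exact_mod_cast hm
  rw [hc, div_le_iff₀ (by positivity)]
  have h1 : ((gadget Φ).satCount A B : ℝ)
      ≤ 4 * m + satClauses Φ (fun v => dec (B (Sum.inl v))) := by
    exact_mod_cast soundness_count Φ A B
  have h2 := hs (fun v => dec (B (Sum.inl v)))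
  have e : (4 + s) / 5 * (5 * (m : ℝ)) = 4 * m + s * m := by ring
  rw [e]
  linarith

end Vale.Agent.Results.P339.NotTwoGadget
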